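import Mathlib

/-!
# P122 : covering lemma for the epsilon removal

A finite set of `≤ N` points of a metric space is covered by few families of balls of the same radius with very large
mutual distances.
-/

namespace Vale.Agent.P122.H800

open Finset

/-- greedy colouring -/
lemma exists_colouring {α : Type*} [DecidableEq α] (M : Finset α) (rel : α → α → Prop) [DecidableRel rel]
    (hsym : ∀ a b, rel a b → rel b a) (D : ℕ) (hD : ∀ a ∈ M, #{b ∈ M | b ≠ a ∧ rel a b} < D) :
    ∃ c : α → ℕ, (∀ a ∈ M, c a < D) ∧ ∀ a ∈ M, ∀ b ∈ M, a ≠ b → rel a b → c a ≠ c b := by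
  classical
  induction M using Finset.induction_on with
  | empty => exact ⟨fun _ => 0, by simp, by simp⟩
  | insert a M ha ih =>
    have hD' : ∀ x ∈ M, #{b ∈ M | b ≠ x ∧ rel x b} < D := fun x hx =>
      lt_of_le_of_lt (card_le_card (filter_subset_filter _ (subset_insert a M))) (hD x (mem_insert_of_mem hx))
    obtain ⟨c, hc1, hc2⟩ := ih hD'
    have h1 : #(({b ∈ M | b ≠ a ∧ rel a b}).image c) < D := by
      refine lt_of_le_of_lt card_image_le ?_
      refine lt_of_le_of_lt (card_le_card (filter_subset_filter _ (subset_insert a M))) (hD a (mem_insert_self _ _))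
    have h2 : ∃ n ∈ range D, n ∉ (({b ∈ M | b ≠ a ∧ rel a b}).image c) := by
      by_contra hcon
      push Not at hcon
      have := card_le_card (fun n hn => hcon n hn : range D ⊆ _)
      rw [card_range] at this
      omega
    obtain ⟨n, hn, hn2⟩ := h2
    refine ⟨fun x => if x = a then n else c x, ?_, ?_⟩
    · intro x hx
      by_cases hxa : x = a
      · simp [hxa, mem_range.1 hn]
      · simp only [hxa, if_false]
        exact hc1 x ((mem_insert.1 hx).resolve_left hxa)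
    · intro x hx y hy hxy hr
      by_cases hxa : x = a
      · have hya : y ≠ a := fun h => hxy (hxa.trans h.symm)
        simp only [hxa, hya, if_true, if_false]
        intro he
        refine hn2 (mem_image.2 ⟨y, mem_filter.2 ⟨(mem_insert.1 hy).resolve_left hya, hya, hxa ▸ hr⟩, he.symm⟩)
      · by_cases hya : y = a
        · simp only [hxa, hya, if_true, if_false]
          intro he
          refine hn2 (mem_image.2 ⟨x, mem_filter.2 ⟨(mem_insert.1 hx).resolve_left hxa, hxa, ?_⟩, he⟩)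
          exact hsym _ _ (hya ▸ hr)
        · simp only [hxa, hya, if_false]
          exact hc2 x ((mem_insert.1 hx).resolve_left hxa) y ((mem_insert.1 hy).resolve_left hya) hxy hr

/-- maximal separated subset -/
lemma exists_maxSep {α : Type*} [PseudoMetricSpace α] [DecidableEq α] (E : Finset α) (d : ℝ) (hd : 0 ≤ d) :
    ∃ M ⊆ E, (∀ a ∈ M, ∀ b ∈ M, a ≠ b → d < dist a b) ∧ ∀ x ∈ E, ∃ y ∈ M, dist x y ≤ d := by
  classical
  induction E using Finset.induction_on with
  | empty => exact ⟨∅, by simp, by simp, by simp⟩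
  | insert a E ha ih =>
    obtain ⟨M, hM, h1, h2⟩ := ih
    by_cases h : ∃ y ∈ M, dist a y ≤ d
    · refine ⟨M, hM.trans (subset_insert _ _), h1, ?_⟩
      intro x hx
      rcases mem_insert.1 hx with rfl | hx
      · exact h
      · exact h2 x hx
    · push Not at h
      refine ⟨insert a M, insert_subset_insert _ hM, ?_, ?_⟩
      · intro x hx y hy hxy
        rcases mem_insert.1 hx with hxa | hx'
        · rcases mem_insert.1 hy with hya | hy'
          · exact absurd (hxa.trans hya.symm) hxy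
          · rw [hxa]; exact h y hy'
        · rcases mem_insert.1 hy with hya | hy'
          · rw [dist_comm, hya]; exact h x hx'
          · exact h1 x hx' y hy' hxy
      · intro x hx
        rcases mem_insert.1 hx with rfl | hx
        · exact ⟨x, mem_insert_self _ _, by simpa using hd⟩
        · obtain ⟨y, hy, hxy⟩ := h2 x hx
          exact ⟨y, mem_insert_of_mem hy, hxy⟩

/-- one step of the covering: points which are not crowded at scale `ρ'` but crowded at scale `ρ` -/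
lemma cover_step {α : Type*} [PseudoMetricSpace α] [DecidableEq α] (S E : Finset α) (hE : E ⊆ S) (ρ ρ' : ℝ)
    (hρ : 0 ≤ ρ) (hρ' : 2 * ρ ≤ ρ') (A B : ℝ) (hA : 0 < A) (D : ℕ) (hD : B < D * A)
    (h1 : ∀ x ∈ E, A ≤ #{y ∈ S | dist x y ≤ ρ}) (h2 : ∀ x ∈ E, (#{y ∈ S | dist x y ≤ ρ'} : ℝ) ≤ B) :
    ∃ T : ℕ → Finset α, (∀ j, T j ⊆ S) ∧ (∀ j, ∀ a ∈ T j, ∀ b ∈ T j, a ≠ b → ρ' / 2 < dist a b) ∧
      ∀ x ∈ E, ∃ j < D, ∃ y ∈ T j, dist x y ≤ 2 * ρ := by
  classical
  obtain ⟨M, hM, hs, hc⟩ := exists_maxSep E (2 * ρ) (by positivity)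
  have key : ∀ a ∈ M, #{b ∈ M | b ≠ a ∧ dist a b ≤ ρ' / 2} < D := by
    intro a ha
    have hle : #{b ∈ M | b ≠ a ∧ dist a b ≤ ρ' / 2} ≤ #{b ∈ M | dist a b ≤ ρ' / 2} :=
      card_le_card (fun b hb => by
        rw [mem_filter] at hb ⊢
        exact ⟨hb.1, hb.2.2⟩)
    refine lt_of_le_of_lt hle ?_
    set Q : Finset α := {b ∈ M | dist a b ≤ ρ' / 2} with hQ
    have hdisj : (Q : Set α).PairwiseDisjoint (fun b => ({y ∈ S | dist b y ≤ ρ} : Finset α)) := by
      intro b hb b' hb' hbb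
      rw [Function.onFun, Finset.disjoint_left]
      intro z hz hz'
      rw [mem_filter] at hz hz'
      have h3 := hs b (mem_filter.1 hb).1 b' (mem_filter.1 hb').1 hbb
      have h4 := dist_triangle_right b b' z
      linarith [hz.2, hz'.2]
    have hsub : Q.biUnion (fun b => ({y ∈ S | dist b y ≤ ρ} : Finset α)) ⊆ {y ∈ S | dist a y ≤ ρ'} := by
      intro z hz
      rw [mem_biUnion] at hz
      obtain ⟨b, hb, hz⟩ := hz
      rw [mem_filter] at hz hb ⊢
      refine ⟨hz.1, ?_⟩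
      have := dist_triangle a b z
      linarith [hb.2, hz.2]
    have h5 : (#Q : ℝ) * A ≤ B := by
      calc (#Q : ℝ) * A = ∑ b ∈ Q, A := by rw [sum_const, nsmul_eq_mul]
        _ ≤ ∑ b ∈ Q, (#{y ∈ S | dist b y ≤ ρ} : ℝ) :=
            sum_le_sum fun b hb => h1 b (hM (mem_filter.1 hb).1)
        _ = (#(Q.biUnion (fun b => ({y ∈ S | dist b y ≤ ρ} : Finset α))) : ℝ) := by
            rw [card_biUnion hdisj]; push_cast; rfl
        _ ≤ (#{y ∈ S | dist a y ≤ ρ'} : ℝ) := by exact_mod_cast card_le_card hsub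
        _ ≤ B := h2 a (hM ha)
    have h6 : (#Q : ℝ) * A < D * A := lt_of_le_of_lt h5 hD
    have h7 : (#Q : ℝ) < D := lt_of_mul_lt_mul_right h6 hA.le
    exact_mod_cast h7
  obtain ⟨c, hc1, hc2⟩ := exists_colouring M (fun a b => dist a b ≤ ρ' / 2)
    (fun a b h => by rw [dist_comm]; exact h) D key
  refine ⟨fun j => {y ∈ M | c y = j}, fun j => (filter_subset _ _).trans (hM.trans hE), ?_, ?_⟩
  · intro j a ha b hb hab
    rw [mem_filter] at ha hb
    by_contra hcon
    push Not at hcon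
    exact hc2 a ha.1 b hb.1 hab hcon (ha.2.trans hb.2.symm)
  · intro x hx
    obtain ⟨y, hy, hxy⟩ := hc x hx
    exact ⟨c y, hc1 y hy, y, mem_filter.2 ⟨hy, rfl⟩, hxy⟩

/-- Covering lemma. `r k` are the radii, the separation at the level `k` is `r (k + 1) / 4`. The number of families is
`(K + 1) * D` with `N < D ^ K`. -/
theorem cover {α : Type*} [PseudoMetricSpace α] [DecidableEq α] (S : Finset α) (K : ℕ) (D : ℕ) (hD : 2 ≤ D)
    (hN : #S < D ^ K) (r : ℕ → ℝ) (hr0 : 0 ≤ r 0) (hr : ∀ k, 2 * r k ≤ r (k + 1)) :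
    ∃ T : ℕ → ℕ → Finset α, (∀ k j, T k j ⊆ S) ∧
      (∀ k j, ∀ a ∈ T k j, ∀ b ∈ T k j, a ≠ b → r (k + 1) / 4 < dist a b) ∧
      ∀ x ∈ S, ∃ k ≤ K, ∃ j < D, ∃ y ∈ T k j, dist x y ≤ r k := by
  classical
  have hr' : ∀ k, 0 ≤ r k := by
    intro k
    induction k with
    | zero => exact hr0
    | succ k ih => linarith [hr k]
  have hD0 : (0:ℝ) < D := by exact_mod_cast (by omega : 0 < D)
  -- level sets
  set E : ℕ → Finset α := fun k => {x ∈ S | (#{y ∈ S | dist x y ≤ r (k + 1) / 2} : ℝ) < (D:ℝ) ^ (k + 1)} with hEd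
  -- level 0 family : points with few neighbours at the scale `r 1 / 2`
  have step : ∀ k, ∃ T : ℕ → Finset α, (∀ j, T j ⊆ S) ∧ (∀ j, ∀ a ∈ T j, ∀ b ∈ T j, a ≠ b → r (k + 1) / 4 < dist a b) ∧
      ∀ x ∈ S, (∀ i < k, x ∉ E i) → x ∈ E k → ∃ j < D, ∃ y ∈ T j, dist x y ≤ r k := by
    intro k
    rcases Nat.eq_zero_or_pos k with rfl | hk
    · have g1 : ∀ x ∈ E 0, (1:ℝ) ≤ #{y ∈ S | dist x y ≤ 0} := by
        intro x hx
        have : x ∈ ({y ∈ S | dist x y ≤ 0} : Finset α) := by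
          rw [mem_filter]
          exact ⟨(mem_filter.1 hx).1, by simp⟩
        have h : 1 ≤ #{y ∈ S | dist x y ≤ 0} := card_pos.2 ⟨x, this⟩
        exact_mod_cast h
      have g2 : ∀ x ∈ E 0, (#{y ∈ S | dist x y ≤ r (0 + 1) / 2} : ℝ) ≤ ((D:ℝ) + (D - 1)) / 2 := by
        intro x hx
        have h := (mem_filter.1 hx).2
        have h' : #{y ∈ S | dist x y ≤ r (0 + 1) / 2} < D := by
          have : (#{y ∈ S | dist x y ≤ r (0 + 1) / 2} : ℝ) < (D : ℝ) := by simpa using h
          exact_mod_cast this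
        have h'' : (#{y ∈ S | dist x y ≤ r (0 + 1) / 2} : ℝ) ≤ (D:ℝ) - 1 := by
          have : #{y ∈ S | dist x y ≤ r (0 + 1) / 2} + 1 ≤ D := h'
          have h3 : ((#{y ∈ S | dist x y ≤ r (0 + 1) / 2} : ℕ) : ℝ) + 1 ≤ D := by exact_mod_cast this
          linarith
        linarith
      obtain ⟨T, h1, h2, h3⟩ := cover_step S (E 0) (filter_subset _ _) 0 (r (0 + 1) / 2) le_rfl
        (by linarith [hr' 1]) 1 (((D:ℝ) + (D - 1)) / 2) one_pos D (by linarith [(by exact_mod_cast hD : (2:ℝ) ≤ D)])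
        g1 g2
      refine ⟨T, h1, ?_, ?_⟩
      · intro j a ha b hb hab
        have := h2 j a ha b hb hab
        linarith
      · intro x _ _ hx
        obtain ⟨j, hj, y, hy, hxy⟩ := h3 x hx
        exact ⟨j, hj, y, hy, by linarith [hr' 0]⟩
    · have g1 : ∀ x ∈ ({x ∈ E k | x ∉ E (k - 1)} : Finset α), (D:ℝ) ^ k ≤ #{y ∈ S | dist x y ≤ r k / 2} := by
        intro x hx
        have h4 := (mem_filter.1 hx).2
        have hxS : x ∈ S := (mem_filter.1 (mem_filter.1 hx).1).1
        by_contra hcon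
        push Not at hcon
        refine h4 (mem_filter.2 ⟨hxS, ?_⟩)
        have hk1 : k - 1 + 1 = k := by omega
        rw [hk1]
        exact hcon
      have g2 : ∀ x ∈ ({x ∈ E k | x ∉ E (k - 1)} : Finset α),
          (#{y ∈ S | dist x y ≤ r (k + 1) / 2} : ℝ) ≤ (D:ℝ) ^ (k + 1) - 1 := by
        intro x hx
        have h4 := (mem_filter.1 (mem_filter.1 hx).1).2
        have h5 : #{y ∈ S | dist x y ≤ r (k + 1) / 2} < D ^ (k + 1) := by exact_mod_cast h4
        have h6 : #{y ∈ S | dist x y ≤ r (k + 1) / 2} + 1 ≤ D ^ (k + 1) := h5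
        have h7 : ((#{y ∈ S | dist x y ≤ r (k + 1) / 2} : ℕ) : ℝ) + 1 ≤ (D:ℝ) ^ (k + 1) := by exact_mod_cast h6
        linarith
      obtain ⟨T, h1, h2, h3⟩ := cover_step S ({x ∈ E k | x ∉ E (k - 1)}) ((filter_subset _ _).trans (filter_subset _ _))
        (r k / 2) (r (k + 1) / 2) (by linarith [hr' k]) (by linarith [hr k, hr' k]) ((D:ℝ) ^ k)
        ((D:ℝ) ^ (k + 1) - 1) (by positivity) D (by rw [pow_succ]; linarith) g1 g2
      refine ⟨T, h1, ?_, ?_⟩
      · intro j a ha b hb hab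
        have := h2 j a ha b hb hab
        linarith
      · intro x hxS hx1 hx2
        obtain ⟨j, hj, y, hy, hxy⟩ := h3 x (mem_filter.2 ⟨hx2, hx1 (k - 1) (by omega)⟩)
        exact ⟨j, hj, y, hy, by linarith⟩
  choose T hT1 hT2 hT3 using step
  refine ⟨T, hT1, hT2, ?_⟩
  intro x hx
  -- minimal level
  have hex : ∃ k, x ∈ E k := by
    refine ⟨K, mem_filter.2 ⟨hx, ?_⟩⟩
    have h1 : #{y ∈ S | dist x y ≤ r (K + 1) / 2} ≤ #S := card_filter_le _ _
    have h2 : #{y ∈ S | dist x y ≤ r (K + 1) / 2} < D ^ (K + 1) :=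
      lt_of_le_of_lt h1 (lt_of_lt_of_le hN (Nat.pow_le_pow_right (by omega) (by omega)))
    exact_mod_cast h2
  classical
  have hk := Nat.find_spec hex
  have hmin : ∀ i < Nat.find hex, x ∉ E i := fun i hi => Nat.find_min hex hi
  have hK : Nat.find hex ≤ K := by
    refine Nat.find_min' hex (mem_filter.2 ⟨hx, ?_⟩)
    have h1 : #{y ∈ S | dist x y ≤ r (K + 1) / 2} ≤ #S := card_filter_le _ _
    have h2 : #{y ∈ S | dist x y ≤ r (K + 1) / 2} < D ^ (K + 1) :=
      lt_of_le_of_lt h1 (lt_of_lt_of_le hN (Nat.pow_le_pow_right (by omega) (by omega)))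
    exact_mod_cast h2
  obtain ⟨j, hj, y, hy, hxy⟩ := hT3 (Nat.find hex) x hx hmin hk
  exact ⟨Nat.find hex, hK, j, hj, y, hy, hxy⟩

end Vale.Agent.P122.H800
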