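import Vale.Agent.P122.FI.Defs

/-! # P122 / FI : transport of the global estimate from a graph to a piece of the surface -/

open MeasureTheory Complex Set
open scoped ENNReal NNReal ContDiff

namespace Vale.Agent.P122.H800

open Vale.Agent.P122.FI

/-- the parametrisation -/
noncomputable def GG (q : E3) (A : E3 ≃L[ℝ] E3) (h : ℝ × ℝ → ℝ) (y : ℝ × ℝ) : E3 := q + A (gr h y)

/-- the inverse of the parametrisation -/
noncomputable def PP (q : E3) (A : E3 ≃L[ℝ] E3) (ξ : E3) : ℝ × ℝ := ((A.symm (ξ - q)) 0, (A.symm (ξ - q)) 1)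

lemma PP_GG (q : E3) (A : E3 ≃L[ℝ] E3) (h : ℝ × ℝ → ℝ) (y : ℝ × ℝ) : PP q A (GG q A h y) = y := by
  simp [PP, GG, gr]

lemma continuous_PP (q : E3) (A : E3 ≃L[ℝ] E3) : Continuous (PP q A) := by
  unfold PP
  fun_prop

lemma measurable_PP (q : E3) (A : E3 ≃L[ℝ] E3) : Measurable (PP q A) := (continuous_PP q A).measurable

lemma contDiff_gr {h : ℝ × ℝ → ℝ} (hh : ContDiff ℝ ∞ h) : ContDiff ℝ ∞ (gr h) := by
  rw [contDiff_euclidean]
  intro i
  fin_cases i
  · exact contDiff_fst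
  · exact contDiff_snd
  · exact hh

lemma contDiff_GG (q : E3) (A : E3 ≃L[ℝ] E3) {h : ℝ × ℝ → ℝ} (hh : ContDiff ℝ ∞ h) : ContDiff ℝ ∞ (GG q A h) := by
  unfold GG
  exact contDiff_const.add (A.contDiff.comp (contDiff_gr hh))

lemma convex_sq (r : ℝ) : Convex ℝ (FI.sq r) := (convex_Icc _ _).prod (convex_Icc _ _)

lemma isCompact_sq (r : ℝ) : IsCompact (FI.sq r) := isCompact_Icc.prod isCompact_Icc

lemma measurableSet_sq (r : ℝ) : MeasurableSet (FI.sq r) := measurableSet_Icc.prod measurableSet_Icc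

/-- the push-forward of the surface measure under the inverse parametrisation has a bounded density -/
lemma exists_density (q : E3) (A : E3 ≃L[ℝ] E3) {h : ℝ × ℝ → ℝ} (hh : ContDiff ℝ ∞ h) (r : ℝ) (Sg : Set E3)
    (hG : ∀ ξ ∈ Sg, ∃ y ∈ FI.sq r, ξ = q + A (gr h y)) :
    ∃ (c : ℝ≥0) (w : ℝ × ℝ → ℝ≥0), Measurable w ∧ (∀ y, w y ≤ c) ∧ (∀ y, y ∉ FI.sq r → w y = 0) ∧
      ((Measure.hausdorffMeasure 2 : Measure E3).restrict Sg).map (PP q A) =
        (volume : Measure (ℝ × ℝ)).withDensity (fun y => (w y : ℝ≥0∞)) := by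
  obtain ⟨L, hL⟩ := ((contDiff_GG q A hh).contDiffOn (s := sq r)).exists_lipschitzOnWith (by simp) (convex_sq r)
    (isCompact_sq r)
  set m : Measure (ℝ × ℝ) := ((Measure.hausdorffMeasure 2 : Measure E3).restrict Sg).map (PP q A) with hm
  set c : ℝ≥0 := L ^ 2 with hc
  have hmle : ∀ B : Set (ℝ × ℝ), MeasurableSet B → m B ≤ c * volume (B ∩ FI.sq r) := by
    intro B hB
    rw [hm, Measure.map_apply (measurable_PP q A) hB, Measure.restrict_apply ((measurable_PP q A) hB)]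
    have hsub : PP q A ⁻¹' B ∩ Sg ⊆ GG q A h '' (B ∩ FI.sq r) := by
      rintro ξ ⟨h1, h2⟩
      obtain ⟨y, hy, rfl⟩ := hG ξ h2
      have h3 : PP q A (GG q A h y) = y := PP_GG q A h y
      refine ⟨y, ⟨?_, hy⟩, rfl⟩
      have h4 : PP q A (q + A (gr h y)) ∈ B := h1
      rwa [show PP q A (q + A (gr h y)) = y from h3] at h4
    calc (Measure.hausdorffMeasure 2 : Measure E3) (PP q A ⁻¹' B ∩ Sg)
        ≤ (Measure.hausdorffMeasure 2 : Measure E3) (GG q A h '' (B ∩ FI.sq r)) := measure_mono hsub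
      _ ≤ (L : ℝ≥0∞) ^ (2:ℝ) * (Measure.hausdorffMeasure 2 : Measure (ℝ × ℝ)) (B ∩ FI.sq r) :=
          (hL.mono inter_subset_right).hausdorffMeasure_image_le (by norm_num)
      _ = c * volume (B ∩ FI.sq r) := by
          rw [hausdorffMeasure_prod_real, hc]
          congr 1
          rw [ENNReal.coe_pow]
          exact_mod_cast ENNReal.rpow_natCast (L:ℝ≥0∞) 2
  have hfin : IsFiniteMeasure m := by
    constructor
    refine lt_of_le_of_lt (hmle univ MeasurableSet.univ) ?_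
    rw [univ_inter]
    exact ENNReal.mul_lt_top ENNReal.coe_lt_top (isCompact_sq r).measure_lt_top
  have hac : m ≪ volume := by
    refine Measure.AbsolutelyContinuous.mk fun s hs h0 => ?_
    have h1 : volume (s ∩ FI.sq r) = 0 := measure_mono_null inter_subset_left h0
    have := hmle s hs
    rw [h1, mul_zero] at this
    exact le_antisymm this zero_le
  have hrn : volume.withDensity (m.rnDeriv volume) = m := Measure.withDensity_rnDeriv_eq m volume hac
  have hle : m.rnDeriv volume ≤ᵐ[volume] (FI.sq r).indicator (fun _ => (c:ℝ≥0∞)) := by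
    refine ae_le_of_forall_setLIntegral_le_of_sigmaFinite (Measure.measurable_rnDeriv _ _) fun s hs _ => ?_
    calc ∫⁻ x in s, m.rnDeriv volume x ∂volume = (volume.withDensity (m.rnDeriv volume)) s :=
          (withDensity_apply _ hs).symm
      _ = m s := by rw [hrn]
      _ ≤ c * volume (s ∩ FI.sq r) := hmle s hs
      _ = ∫⁻ x in s, (FI.sq r).indicator (fun _ => (c:ℝ≥0∞)) x ∂volume := by
          rw [lintegral_indicator (measurableSet_sq r), lintegral_const, Measure.restrict_restrict (measurableSet_sq r),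
            Measure.restrict_apply_univ, inter_comm]
  refine ⟨c, (FI.sq r).indicator (fun y => min (m.rnDeriv volume y).toNNReal c), ?_, ?_, ?_, ?_⟩
  · exact ((Measure.measurable_rnDeriv m volume).ennreal_toNNReal.min measurable_const).indicator (measurableSet_sq r)
  · intro y
    by_cases hy : y ∈ FI.sq r
    · rw [indicator_of_mem hy]; exact min_le_right _ _
    · rw [indicator_of_notMem hy]; exact zero_le
  · intro y hy
    rw [indicator_of_notMem hy]
  · refine hrn.symm.trans (withDensity_congr_ae ?_)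
    filter_upwards [hle] with y hy
    by_cases hys : y ∈ FI.sq r
    · rw [indicator_of_mem hys] at hy ⊢
      have h1 : m.rnDeriv volume y ≠ ⊤ := ne_top_of_le_ne_top ENNReal.coe_ne_top hy
      have h2 : (m.rnDeriv volume y).toNNReal ≤ c := by
        rw [← ENNReal.coe_le_coe, ENNReal.coe_toNNReal h1]
        exact hy
      rw [min_eq_left h2, ENNReal.coe_toNNReal h1]
    · rw [indicator_of_notMem hys] at hy ⊢
      simpa using hy

lemma inner_GG (q : E3) (A : E3 ≃L[ℝ] E3) (h : ℝ × ℝ → ℝ) (x : E3) (y : ℝ × ℝ) :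
    (inner ℝ x (GG q A h y) : ℝ) = inner ℝ x q +
      ((ContinuousLinearMap.adjoint (A : E3 →L[ℝ] E3) x) 0 * y.1 +
        (ContinuousLinearMap.adjoint (A : E3 →L[ℝ] E3) x) 1 * y.2 +
        (ContinuousLinearMap.adjoint (A : E3 →L[ℝ] E3) x) 2 * h y) := by
  unfold GG
  rw [inner_add_right]
  congr 1
  have : (A (gr h y)) = (A : E3 →L[ℝ] E3) (gr h y) := rfl
  rw [this, ← ContinuousLinearMap.adjoint_inner_left]
  rw [PiLp.inner_apply, Fin.sum_univ_three]
  simp [gr]
  ring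

/-- the data on the parameter square -/
noncomputable def dat (q : E3) (A : E3 ≃L[ℝ] E3) (h : ℝ × ℝ → ℝ) (w : ℝ × ℝ → ℝ≥0) (f : E3 → ℂ) (y : ℝ × ℝ) : ℂ :=
  w y • f (GG q A h y)

lemma extension_eq (q : E3) (A : E3 ≃L[ℝ] E3) {h : ℝ × ℝ → ℝ} (hh : ContDiff ℝ ∞ h) (r : ℝ) (Sg : Set E3)
    (hSg : MeasurableSet Sg) (hG : ∀ ξ ∈ Sg, ∃ y ∈ FI.sq r, ξ = q + A (gr h y)) (w : ℝ × ℝ → ℝ≥0) (hw : Measurable w)
    (hmap : ((Measure.hausdorffMeasure 2 : Measure E3).restrict Sg).map (PP q A) =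
        (volume : Measure (ℝ × ℝ)).withDensity (fun y => (w y : ℝ≥0∞))) (f : E3 → ℂ) (hf : Measurable f) (x : E3) :
    extension Sg f x = ((Real.pi / 4 : ℝ) : ℂ) * cexp (2 * Real.pi * I * (inner ℝ x q : ℝ)) *
      FI.Ext h (dat q A h w f) (ContinuousLinearMap.adjoint (A : E3 →L[ℝ] E3) x) := by
  have hGm : Measurable (GG q A h) := (contDiff_GG q A hh).continuous.measurable
  unfold extension surf
  rw [integral_smul_measure]
  have h1 : ∫ ξ, f ξ * cexp (2 * Real.pi * I * (inner ℝ x ξ : ℝ)) ∂(Measure.hausdorffMeasure 2 : Measure E3).restrict Sg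
      = ∫ ξ, (fun y => f (GG q A h y) * cexp (2 * Real.pi * I * (inner ℝ x (GG q A h y) : ℝ))) (PP q A ξ)
          ∂(Measure.hausdorffMeasure 2 : Measure E3).restrict Sg := by
    refine setIntegral_congr_fun hSg fun ξ hξ => ?_
    obtain ⟨y, hy, rfl⟩ := hG ξ hξ
    have h3 : PP q A (q + A (gr h y)) = y := PP_GG q A h y
    simp only [h3]
    rfl
  have hmeas : Measurable (fun y => f (GG q A h y) * cexp (2 * Real.pi * I * (inner ℝ x (GG q A h y) : ℝ))) := by
    refine (hf.comp hGm).mul ?_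
    have h2 : Measurable fun y => (inner ℝ x (GG q A h y) : ℝ) := by
      have : Continuous fun y => (inner ℝ x (GG q A h y) : ℝ) :=
        continuous_const.inner (contDiff_GG q A hh).continuous
      exact this.measurable
    fun_prop
  rw [h1, ← integral_map (measurable_PP q A).aemeasurable hmeas.aestronglyMeasurable, hmap,
    integral_withDensity_eq_integral_smul hw]
  have hint : ∫ y, w y • (f (GG q A h y) * cexp (2 * Real.pi * I * (inner ℝ x (GG q A h y) : ℝ))) =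
      cexp (2 * Real.pi * I * (inner ℝ x q : ℝ)) *
        FI.Ext h (dat q A h w f) (ContinuousLinearMap.adjoint (A : E3 →L[ℝ] E3) x) := by
    unfold FI.Ext dat
    refine Eq.trans ?_ (integral_const_mul (cexp (2 * Real.pi * I * (inner ℝ x q : ℝ))) _)
    refine integral_congr_ae (Filter.Eventually.of_forall fun y => ?_)
    simp only [inner_GG]
    rw [show (2 * Real.pi * I * ((inner ℝ x q + ((ContinuousLinearMap.adjoint (A : E3 →L[ℝ] E3) x) 0 * y.1 +
          (ContinuousLinearMap.adjoint (A : E3 →L[ℝ] E3) x) 1 * y.2 +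
          (ContinuousLinearMap.adjoint (A : E3 →L[ℝ] E3) x) 2 * h y) : ℝ) : ℂ)) =
        2 * Real.pi * I * ((inner ℝ x q : ℝ) : ℂ) + 2 * Real.pi * I *
          (((ContinuousLinearMap.adjoint (A : E3 →L[ℝ] E3) x) 0 * y.1 +
          (ContinuousLinearMap.adjoint (A : E3 →L[ℝ] E3) x) 1 * y.2 +
          (ContinuousLinearMap.adjoint (A : E3 →L[ℝ] E3) x) 2 * h y : ℝ) : ℂ) by push_cast; ring, Complex.exp_add]
    rw [smul_mul_assoc, mul_smul_comm]
    congr 1
    ring
  rw [hint, ENNReal.toReal_ofReal (by positivity), Complex.real_smul]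
  ring

lemma adjoint_det (A : E3 ≃L[ℝ] E3) : LinearMap.det (ContinuousLinearMap.adjoint (A : E3 →L[ℝ] E3) : E3 →ₗ[ℝ] E3) ≠ 0 := by
  have h1 : (ContinuousLinearMap.adjoint (A : E3 →L[ℝ] E3)) ∘L (ContinuousLinearMap.adjoint (A.symm : E3 →L[ℝ] E3)) =
      ContinuousLinearMap.id ℝ E3 := by
    rw [← ContinuousLinearMap.adjoint_comp]
    refine ContinuousLinearMap.ext fun x => ext_inner_right ℝ fun y => ?_
    rw [ContinuousLinearMap.adjoint_inner_left]
    simp
  have h2 : LinearMap.det (ContinuousLinearMap.adjoint (A : E3 →L[ℝ] E3) : E3 →ₗ[ℝ] E3) *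
      LinearMap.det (ContinuousLinearMap.adjoint (A.symm : E3 →L[ℝ] E3) : E3 →ₗ[ℝ] E3) = 1 := by
    rw [← LinearMap.det_comp, show ((ContinuousLinearMap.adjoint (A : E3 →L[ℝ] E3) : E3 →ₗ[ℝ] E3) ∘ₗ
      (ContinuousLinearMap.adjoint (A.symm : E3 →L[ℝ] E3) : E3 →ₗ[ℝ] E3)) =
      ((ContinuousLinearMap.adjoint (A : E3 →L[ℝ] E3) ∘L ContinuousLinearMap.adjoint (A.symm : E3 →L[ℝ] E3) :
        E3 →L[ℝ] E3) : E3 →ₗ[ℝ] E3) from rfl, h1]
    simp
  intro h0
  rw [h0, zero_mul] at h2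
  exact zero_ne_one h2

/-- change of variables -/
lemma eLpNorm_comp_adjoint (A : E3 ≃L[ℝ] E3) (p : ℝ≥0∞) (hp : p ≠ ⊤) :
    ∃ c : ℝ≥0, ∀ F : E3 → ℂ, eLpNorm (fun x => F (ContinuousLinearMap.adjoint (A : E3 →L[ℝ] E3) x)) p volume ≤
      c * eLpNorm F p volume := by
  set T : E3 →ₗ[ℝ] E3 := (ContinuousLinearMap.adjoint (A : E3 →L[ℝ] E3) : E3 →ₗ[ℝ] E3) with hT
  have hdet : LinearMap.det T ≠ 0 := adjoint_det A
  have hker : T.ker = ⊥ := by
    have := LinearMap.isUnit_iff_isUnit_det T |>.2 (isUnit_iff_ne_zero.2 hdet)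
    exact (LinearMap.isUnit_iff_ker_eq_bot T).1 this
  have hemb : MeasurableEmbedding T := (LinearMap.isClosedEmbedding_of_injective hker).measurableEmbedding
  refine ⟨(ENNReal.ofReal |(LinearMap.det T)⁻¹|).toNNReal ^ (1 / p).toReal, fun F => ?_⟩
  have h1 : eLpNorm (fun x => F (T x)) p volume = eLpNorm F p (Measure.map T volume) :=
    (hemb.eLpNorm_map_measure (g := F)).symm
  have h2 : (fun x => F (ContinuousLinearMap.adjoint (A : E3 →L[ℝ] E3) x)) = fun x => F (T x) := rfl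
  rw [h2, h1, Measure.map_linearMap_addHaar_eq_smul_addHaar volume hdet, eLpNorm_smul_measure_of_ne_top hp, smul_eq_mul]
  refine le_of_eq ?_
  congr 1
  rw [ENNReal.coe_rpow_of_nonneg _ ENNReal.toReal_nonneg, ENNReal.coe_toNNReal ENNReal.ofReal_ne_top]

lemma eLpNorm_dat (q : E3) (A : E3 ≃L[ℝ] E3) {h : ℝ × ℝ → ℝ} (hh : ContDiff ℝ ∞ h) (r : ℝ) (Sg : Set E3)
    (hSg : MeasurableSet Sg) (hG : ∀ ξ ∈ Sg, ∃ y ∈ FI.sq r, ξ = q + A (gr h y)) (w : ℝ × ℝ → ℝ≥0) (hw : Measurable w)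
    (c : ℝ≥0) (hc : ∀ y, w y ≤ c)
    (hmap : ((Measure.hausdorffMeasure 2 : Measure E3).restrict Sg).map (PP q A) =
        (volume : Measure (ℝ × ℝ)).withDensity (fun y => (w y : ℝ≥0∞))) (p : ℝ) (hp : 1 < p) (f : E3 → ℂ)
    (hf : Measurable f) :
    eLpNorm (dat q A h w f) (ENNReal.ofReal p) volume ≤
      ((c ^ (p - 1) * (Real.toNNReal (4 / Real.pi))) ^ (1 / p) : ℝ≥0) * eLpNorm f (ENNReal.ofReal p) (surf Sg) := by
  have hGm : Measurable (GG q A h) := (contDiff_GG q A hh).continuous.measurable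
  have hp0 : ENNReal.ofReal p ≠ 0 := by simp; linarith
  rw [eLpNorm_eq_lintegral_rpow_enorm_toReal hp0 ENNReal.ofReal_ne_top,
    eLpNorm_eq_lintegral_rpow_enorm_toReal hp0 ENNReal.ofReal_ne_top, ENNReal.toReal_ofReal (by linarith)]
  have h1 : ∫⁻ y, ‖dat q A h w f y‖ₑ ^ p ≤ (c:ℝ≥0∞) ^ (p - 1) * ∫⁻ y, (w y : ℝ≥0∞) * ‖f (GG q A h y)‖ₑ ^ p := by
    rw [← lintegral_const_mul' _ _ (ENNReal.rpow_ne_top_of_nonneg (by linarith) ENNReal.coe_ne_top)]
    refine lintegral_mono fun y => ?_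
    unfold dat
    have h2 : ‖w y • f (GG q A h y)‖ₑ = (w y : ℝ≥0∞) * ‖f (GG q A h y)‖ₑ := by
      rw [NNReal.smul_def, enorm_smul]
      congr 1
      simp
    rw [h2, ENNReal.mul_rpow_of_nonneg _ _ (by linarith), ← mul_assoc]
    refine mul_le_mul_left ?_ _
    have h3 : (w y : ℝ≥0∞) ^ p = (w y : ℝ≥0∞) ^ (p - 1) * (w y : ℝ≥0∞) := by
      rcases eq_or_ne (w y) 0 with h0 | h0
      · rw [h0, ENNReal.coe_zero, mul_zero, ENNReal.zero_rpow_of_pos (by linarith)]
      · nth_rewrite 3 [← ENNReal.rpow_one (w y : ℝ≥0∞)]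
        rw [← ENNReal.rpow_add _ _ (by exact_mod_cast h0) ENNReal.coe_ne_top]
        congr 1
        ring
    rw [h3]
    refine mul_le_mul_left ?_ _
    exact ENNReal.rpow_le_rpow (by exact_mod_cast hc y) (by linarith)
  have h4 : ∫⁻ y, (w y : ℝ≥0∞) * ‖f (GG q A h y)‖ₑ ^ p = ENNReal.ofReal (4 / Real.pi) * ∫⁻ ξ, ‖f ξ‖ₑ ^ p ∂(surf Sg) := by
    have hfm : Measurable fun y => ‖f (GG q A h y)‖ₑ ^ p := ((hf.comp hGm).enorm).pow_const p
    have h5 := lintegral_withDensity_eq_lintegral_mul (volume : Measure (ℝ × ℝ)) hw.coe_nnreal_ennreal hfm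
    rw [← hmap, lintegral_map hfm (measurable_PP q A)] at h5
    have h6 : ∫⁻ ξ, ‖f (GG q A h (PP q A ξ))‖ₑ ^ p ∂(Measure.hausdorffMeasure 2 : Measure E3).restrict Sg =
        ∫⁻ ξ, ‖f ξ‖ₑ ^ p ∂(Measure.hausdorffMeasure 2 : Measure E3).restrict Sg := by
      refine setLIntegral_congr_fun hSg fun ξ hξ => ?_
      obtain ⟨y, hy, rfl⟩ := hG ξ hξ
      have h3 : PP q A (q + A (gr h y)) = y := PP_GG q A h y
      simp only [h3]
      rfl
    unfold surf
    rw [lintegral_smul_measure, ← h6, h5, smul_eq_mul, ← mul_assoc, ← ENNReal.ofReal_mul (by positivity)]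
    rw [show 4 / Real.pi * (Real.pi / 4) = 1 by field_simp, ENNReal.ofReal_one, one_mul]
    rfl
  calc (∫⁻ y, ‖dat q A h w f y‖ₑ ^ p) ^ (1 / p)
      ≤ ((c:ℝ≥0∞) ^ (p - 1) * (ENNReal.ofReal (4 / Real.pi) * ∫⁻ ξ, ‖f ξ‖ₑ ^ p ∂(surf Sg))) ^ (1 / p) := by
        rw [← h4]
        exact ENNReal.rpow_le_rpow h1 (by positivity)
    _ = _ := by
        rw [← mul_assoc, ENNReal.mul_rpow_of_nonneg _ _ (by positivity)]
        congr 1
        rw [ENNReal.coe_rpow_of_nonneg _ (by positivity), ENNReal.coe_mul, ENNReal.coe_rpow_of_nonneg _ (by linarith)]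
        rfl

theorem piece : FI.PIECE := by
  intro q A h r p C hph hr hp hest Sg hSg hG
  have hh := hph.smooth
  obtain ⟨c, w, hw, hwc, hw0, hmap⟩ := exists_density q A hh r Sg hG
  obtain ⟨c', hc'⟩ := eLpNorm_comp_adjoint A (ENNReal.ofReal p) ENNReal.ofReal_ne_top
  have hGm : Measurable (GG q A h) := (contDiff_GG q A hh).continuous.measurable
  have hD : ∃ D : ℝ≥0, ∀ f : E3 → ℂ, Measurable f →
      eLpNorm (dat q A h w f) (ENNReal.ofReal p) volume ≤ D * eLpNorm f (ENNReal.ofReal p) (surf Sg) :=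
    ⟨_, fun f hf => eLpNorm_dat q A hh r Sg hSg hG w hw c hwc hmap p hp f hf⟩
  obtain ⟨D, hD⟩ := hD
  have h1 : ∀ f : E3 → ℂ, Measurable f → eLpNorm (extension Sg f) (ENNReal.ofReal p) volume ≤
      (Real.toNNReal (Real.pi / 4)) *
        eLpNorm (fun x => FI.Ext h (dat q A h w f) (ContinuousLinearMap.adjoint (A : E3 →L[ℝ] E3) x))
        (ENNReal.ofReal p) volume := by
    intro f hf
    have h2 : ∀ x, ‖extension Sg f x‖ = ‖((Real.pi / 4 : ℝ)) • FI.Ext h (dat q A h w f)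
        (ContinuousLinearMap.adjoint (A : E3 →L[ℝ] E3) x)‖ := by
      intro x
      rw [extension_eq q A hh r Sg hSg hG w hw hmap f hf x, norm_mul, norm_mul, norm_smul]
      have h3 : ‖cexp (2 * Real.pi * I * (inner ℝ x q : ℝ))‖ = 1 := by
        rw [show (2 * Real.pi * I * ((inner ℝ x q : ℝ) : ℂ)) = ((2 * Real.pi * (inner ℝ x q : ℝ) : ℝ) : ℂ) * I by
          push_cast; ring]
        exact Complex.norm_exp_ofReal_mul_I _
      rw [h3, mul_one, Complex.norm_real]
    rw [eLpNorm_congr_norm_ae (Filter.Eventually.of_forall h2)]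
    have h4 := eLpNorm_const_smul_le (c := (Real.pi / 4 : ℝ)) (f := fun x => FI.Ext h (dat q A h w f)
        (ContinuousLinearMap.adjoint (A : E3 →L[ℝ] E3) x)) (p := ENNReal.ofReal p) (μ := (volume : Measure E3))
    have h5 : ‖(Real.pi / 4 : ℝ)‖ₑ = ((Real.toNNReal (Real.pi / 4) : ℝ≥0) : ℝ≥0∞) := by
      rw [Real.enorm_eq_ofReal (by positivity)]
      rfl
    rw [h5] at h4
    exact h4
  have h2 : ∀ f : E3 → ℂ, Measurable f → eLpNorm (FI.Ext h (dat q A h w f)) (ENNReal.ofReal p) volume ≤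
      C * (D * eLpNorm f (ENNReal.ofReal p) (surf Sg)) := by
    intro f hf
    have hmd : Measurable (dat q A h w f) := by
      unfold dat
      exact hw.smul (hf.comp hGm)
    refine (hest _ hmd ?_).trans (mul_le_mul_right (hD f hf) _)
    intro y hy
    unfold dat
    rw [hw0 y hy, zero_smul]
  refine ⟨(Real.toNNReal (Real.pi / 4)) * (c' * (C * D)), fun f hf => ?_⟩
  calc eLpNorm (extension Sg f) (ENNReal.ofReal p) volume
      ≤ _ := h1 f hf
    _ ≤ (Real.toNNReal (Real.pi / 4)) * (c' * (C * (D * eLpNorm f (ENNReal.ofReal p) (surf Sg)))) :=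
        mul_le_mul_right ((hc' _).trans (mul_le_mul_right (h2 f hf) _)) _
    _ = _ := by
        simp only [ENNReal.coe_mul, mul_assoc]

end Vale.Agent.P122.H800
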